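import Vale.Agent.P269.G2.Model
import Vale.Agent.P269.G1.H598.Cor

/-!
# Tools for series of correlators on the full small phase space
-/

namespace Vale.Agent.P269.G2.H598

open Finset.HasAntidiagonal (antidiagonal)
open Vale.Agent.P269.CI
open Vale.Agent.P269.G1 (toSer lst)
open Vale.Agent.P269.G1.H598 (toSer_add' lst_zero count_lst deg_ne lowerSum_zero)

variable {X : CompleteIntersection} {F : ℕ → ℕ → List (Ins X) → ℂ}

/-- the class of a variable -/
noncomputable def clsM (X : CompleteIntersection) (i : Fin (nx X)) : Ix X :=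
  (Fintype.equivFin (Ix X)).symm i

theorem map_e (L : List (Fin (nx X))) :
    L.map (E0 X).e = (L.map (clsM X)).map fun a => (a, 0) := by
  rw [List.map_map]
  rfl

theorem map_i0 (L : List (Ix X)) : (L.map (E0 X).i0).map (E0 X).e = L.map fun a => (a, 0) := by
  rw [List.map_map]
  congr 1
  funext a
  exact (E0 X).e_i0 a

theorem sM_congr {A B : ℕ → List (Ins X) → ℂ}
    (h : ∀ d (L : List (Ix X)), A d (L.map fun a => (a, 0)) = B d (L.map fun a => (a, 0))) :
    sr (E0 X) A = sr (E0 X) B := by
  unfold sr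
  congr 1
  funext L
  ext d
  rw [map_e]
  simpa using h d (L.map (clsM X))

theorem sM_add (A B : ℕ → List (Ins X) → ℂ) :
    sr (E0 X) (fun d L => A d L + B d L) = sr (E0 X) A + sr (E0 X) B := by
  unfold sr
  rw [← toSer_add']
  congr 1

theorem sM_zero : sr (E0 X) (fun _ _ => 0) = 0 := by
  funext α
  change ((∏ i, (α i).factorial : ℕ) : ℚ)⁻¹ • (PowerSeries.mk fun _ => (0 : ℂ)) = 0
  have : (PowerSeries.mk fun _ => (0 : ℂ)) = 0 := by
    ext; simp
  rw [this, smul_zero]

theorem smul_RM (c : ℂ) (f : RM X) : c • f = cb (nx X) c * f := by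
  ext n m
  rw [cb, MvPowerSeries.coeff_C_mul, PowerSeries.coeff_C_mul]
  rfl

theorem sM_smul (c : ℂ) (A : ℕ → List (Ins X) → ℂ) :
    sr (E0 X) (fun d L => c * A d L) = c • sr (E0 X) A := by
  funext α
  change ((∏ i, (α i).factorial : ℕ) : ℚ)⁻¹ • (PowerSeries.mk fun d => c * A d _) =
    c • (((∏ i, (α i).factorial : ℕ) : ℚ)⁻¹ • (PowerSeries.mk fun d => A d _))
  rw [smul_comm]
  congr 1

theorem sM_neg (A : ℕ → List (Ins X) → ℂ) :
    sr (E0 X) (fun d L => - A d L) = - sr (E0 X) A := by
  have h := sM_smul (-1) A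
  simp only [neg_mul, one_mul, neg_smul, one_smul] at h
  exact h

theorem sM_sub (A B : ℕ → List (Ins X) → ℂ) :
    sr (E0 X) (fun d L => A d L - B d L) = sr (E0 X) A - sr (E0 X) B := by
  have h := sM_add A (fun d L => - B d L)
  rw [sM_neg] at h
  simpa [sub_eq_add_neg] using h

theorem sM_sum {σ : Type*} (s : Finset σ) (A : σ → ℕ → List (Ins X) → ℂ) :
    sr (E0 X) (fun d L => ∑ x ∈ s, A x d L) = ∑ x ∈ s, sr (E0 X) (A x) := by
  classical
  induction s using Finset.induction_on with
  | empty => simpa using sM_zero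
  | insert a s ha ih =>
    rw [Finset.sum_insert ha, ← ih, ← sM_add]
    exact sM_congr fun d L => Finset.sum_insert ha

theorem par_false (he : Even X.dim) (a : Ix X) : par X a = false := by
  rcases a with j | v
  · rfl
  · have h : X.dim % 2 = 0 := Nat.even_iff.1 he
    simp [par, h]

theorem sgn_one (he : Even X.dim) (a b : Ix X) : sgn (par X a) (par X b) = 1 := by
  rw [par_false he, par_false he]
  rfl

theorem symm_even (hF : IsGW X F) (he : Even X.dim) (g d : ℕ) (L M : List (Ins X))
    (x y : Ins X) : F g d (L ++ x :: y :: M) = F g d (L ++ y :: x :: M) := by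
  have h := hF.symm g d L M x y
  rw [sgn_one he, one_mul] at h
  exact h

/-- correlators are symmetric -/
theorem F_perm (hF : IsGW X F) (he : Even X.dim) (g d : ℕ) {L M : List (Ins X)}
    (h : L.Perm M) : F g d L = F g d M := by
  have key : ∀ P : List (Ins X), F g d (P ++ L) = F g d (P ++ M) := by
    induction h with
    | nil => intro P; rfl
    | cons x _ ih =>
      intro P
      have h1 := ih (P ++ [x])
      simpa using h1
    | swap x y l =>
      intro P
      exact symm_even hF he g d P l y x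
    | trans _ _ ih1 ih2 => intro P; exact (ih1 P).trans (ih2 P)
  exact key []

theorem cor_perm (hF : IsGW X F) (he : Even X.dim) (g : ℕ) {P Q : List (Ins X)}
    (h : P.Perm Q) : sr (E0 X) (cor F g P) = sr (E0 X) (cor F g Q) :=
  sM_congr fun d L => F_perm hF he g d (List.Perm.append_right _ h)

/-- derivative of the series of a correlator -/
theorem pd_cor (hF : IsGW X F) (he : Even X.dim) (g : ℕ) (P : List (Ins X)) (b : Ix X) :
    pd b (sr (E0 X) (cor F g P)) = sr (E0 X) (cor F g ((b, 0) :: P)) := by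
  unfold pd
  rw [pderiv_sr_cor (E0 X) hF he, (E0 X).e_i0]

theorem sM_mulS (he : Even X.dim) (A B : ℕ → List (Ins X) → ℂ) (hA : SymF (E0 X) A)
    (hB : SymF (E0 X) B) : sr (E0 X) (mulS A B) = sr (E0 X) A * sr (E0 X) B :=
  sr_mulS (E0 X) he A B hA hB

theorem pd_smul (b : Ix X) (c : ℂ) (f : RM X) : pd b (c • f) = c • pd b f := by
  unfold pd
  have : c • f = (PowerSeries.C c : PowerSeries ℂ) • f := by
    ext n m
    simp
  rw [this, Derivation.map_smul]
  ext n m
  simp

theorem pd_add (b : Ix X) (f g : RM X) : pd b (f + g) = pd b f + pd b g := map_add _ f g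

theorem pd_sum (b : Ix X) {σ : Type*} (s : Finset σ) (f : σ → RM X) :
    pd b (∑ x ∈ s, f x) = ∑ x ∈ s, pd b (f x) := map_sum _ f s

theorem pd_mul (b : Ix X) (f g : RM X) : pd b (f * g) = pd b f * g + f * pd b g := by
  unfold pd
  rw [Derivation.leibniz, smul_eq_mul, smul_eq_mul]
  ring

theorem pd_cb (b : Ix X) (c : ℂ) : pd b (cb (nx X) c) = 0 := MvPowerSeries.pderiv_C

theorem pd_X (a b : Ix X) :
    pd a (MvPowerSeries.X ((E0 X).i0 b) : RM X) = if a = b then 1 else 0 := by
  unfold pd
  rw [MvPowerSeries.pderiv_X, Pi.single_apply]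
  by_cases h : a = b
  · subst h; rw [if_pos rfl, if_pos rfl]
  · rw [if_neg h, if_neg]
    intro h2
    exact h ((Fintype.equivFin (Ix X)).injective h2.symm)

/-- topological recursion in genus zero -/
theorem trr_sM (hF : IsGW X F) (he : Even X.dim) (a : Ix X) (m : ℕ) (x y : Ins X) :
    sr (E0 X) (cor F 0 [(a, m + 1), x, y]) = ∑ α, ∑ β, pairingInv X α β •
      (sr (E0 X) (cor F 0 [(β, 0), x, y]) * sr (E0 X) (cor F 0 [(a, m), (α, 0)])) := by
  have h1 : ∀ α β, pairingInv X α β •
      (sr (E0 X) (cor F 0 [(β, 0), x, y]) * sr (E0 X) (cor F 0 [(a, m), (α, 0)])) =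
      sr (E0 X) (fun d L => pairingInv X α β *
        mulS (cor F 0 [(β, 0), x, y]) (cor F 0 [(a, m), (α, 0)]) d L) := by
    intro α β
    rw [← sM_mulS he _ _ (symF_cor (E0 X) hF he 0 _) (symF_cor (E0 X) hF he 0 _), sM_smul]
  simp only [h1]
  simp only [← sM_sum]
  refine sM_congr fun d L => ?_
  exact hF.trr d a m x y (L.map fun a => (a, 0))

theorem pairingInv_symm' (X : CompleteIntersection) (he : Even X.dim) (a b : Ix X) :
    pairingInv X a b = pairingInv X b a := by
  rcases a with i | u <;> rcases b with j | v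
  · simp only [pairingInv]
    rw [add_comm]
  · rfl
  · rfl
  · have h : Matrix.transpose (Matrix.of X.form) = Matrix.of X.form := by
      ext i j
      rw [Matrix.transpose_apply, Matrix.of_apply, Matrix.of_apply, X.form_symm j i,
        he.neg_one_pow, one_mul]
    change (Matrix.of X.form)⁻¹ u v = (Matrix.of X.form)⁻¹ v u
    have h2 : Matrix.transpose ((Matrix.of X.form)⁻¹) = (Matrix.of X.form)⁻¹ := by
      rw [Matrix.transpose_nonsing_inv, h]
    have h3 := congrFun (congrFun h2 v) u
    rw [Matrix.transpose_apply] at h3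
    exact h3

theorem pairing_symm' (X : CompleteIntersection) (he : Even X.dim) (a b : Ix X) :
    pairing X a b = pairing X b a := by
  rcases a with i | u <;> rcases b with j | v
  · simp only [pairing]
    rw [add_comm]
  · rfl
  · rfl
  · change X.form u v = X.form v u
    rw [X.form_symm u v, he.neg_one_pow, one_mul]

theorem pairing_inv_sum (X : CompleteIntersection) (j k : Ix X) :
    ∑ l, pairing X j l * pairingInv X l k = if j = k then 1 else 0 := by
  rw [Fintype.sum_sum_type]
  rcases j with j | u <;> rcases k with k | w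
  · have h0 : ∑ v : X.Prim, pairing X (Sum.inl j) (Sum.inr v) *
        pairingInv X (Sum.inr v) (Sum.inl k) = 0 := by
      refine Finset.sum_eq_zero fun v _ => ?_
      have : pairing X (Sum.inl j) (Sum.inr v) = 0 := rfl
      rw [this, zero_mul]
    rw [h0, add_zero]
    have h := G1.H598.pairing_inv_amb (X := X) j k
    simp only [Sum.inl.injEq]
    rw [← h]
    exact Finset.sum_congr rfl fun l _ => mul_comm _ _
  · rw [if_neg (by simp)]
    have h0 : ∀ l : Fin (X.dim + 1), pairingInv X (Sum.inl l) (Sum.inr w) = 0 := fun _ => rfl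
    have h2 : ∀ v : X.Prim, pairing X (Sum.inl j) (Sum.inr v) = 0 := fun _ => rfl
    simp [h0, h2]
  · rw [if_neg (by simp)]
    have h0 : ∀ l : Fin (X.dim + 1), pairing X (Sum.inr u) (Sum.inl l) = 0 := fun _ => rfl
    have h2 : ∀ v : X.Prim, pairingInv X (Sum.inr v) (Sum.inl k) = 0 := fun _ => rfl
    simp [h0, h2]
  · have h0 : ∀ l : Fin (X.dim + 1), pairing X (Sum.inr u) (Sum.inl l) = 0 := fun _ => rfl
    simp only [h0, zero_mul, Finset.sum_const_zero, zero_add, Sum.inr.injEq]
    have h : (Matrix.of X.form) * (Matrix.of X.form)⁻¹ = 1 :=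
      Matrix.mul_nonsing_inv _ (isUnit_iff_ne_zero.2 X.form_nondeg)
    have h2 := congrFun (congrFun h u) w
    rw [Matrix.mul_apply, Matrix.one_apply] at h2
    exact h2

/-- the constant series -/
theorem sM_const (c : ℂ) :
    sr (E0 X) (fun d L => if d = 0 ∧ L = [] then c else 0) = cb (nx X) c := by
  unfold cb
  ext α m
  change (PowerSeries.coeff m) ((((∏ i, (α i).factorial : ℕ) : ℚ)⁻¹ •
    (PowerSeries.mk fun d => if d = 0 ∧ (lst α).map (E0 X).e = [] then c else 0) :
      PowerSeries ℂ)) = _
  rw [MvPowerSeries.coeff_C]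
  by_cases hα : α = 0
  · subst hα
    rw [if_pos rfl, lst_zero]
    simp [PowerSeries.coeff_C]
  · rw [if_neg hα]
    have : lst α ≠ [] := by
      intro h
      apply hα
      ext j
      have := count_lst α j
      rw [h] at this
      simpa using this.symm
    simp [this]

end Vale.Agent.P269.G2.H598
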