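import Vale.Agent.P269.G1.H660.Gpart
import Vale.Agent.P269.G1.H920.Closed

/-! The part of Getzler's relation for `E^i, E, E, E^j X` which contains the genus-one
potential. -/

set_option autoImplicit false

namespace Vale.Agent.P269.G2.H598.KX

open Finset.HasAntidiagonal (antidiagonal)
open Vale.Agent.P269.G1 Vale.Agent.P269.G1.H660

variable {R A O : Type*} [CommRing R] [Algebra ℚ R] [CommRing A] [Algebra R A]
    [Ring O] [Algebra R O] (S : Frob R A O)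

/-- second differences on a diagonal -/
theorem tele2 {M : Type*} [AddCommGroup M] (g : ℕ → ℕ → M) (s : ℕ) :
    ∑ p ∈ antidiagonal s, ((g (p.1 + 1) (p.2 + 1) - g (p.1 + 2) p.2) +
      (g (p.1 + 1) (p.2 + 1) - g p.1 (p.2 + 2))) =
      g 1 (s + 1) - g (s + 2) 0 + (g (s + 1) 1 - g 0 (s + 2)) := by
  rw [Finset.sum_add_distrib]
  have h1 := tele (fun i j => g (i + 1) j) s
  have h2 := tele (fun i j => g i (j + 1)) s
  rw [h1]
  have h3 : ∑ p ∈ antidiagonal s, (g (p.1 + 1) (p.2 + 1) - g p.1 (p.2 + 2)) =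
      -∑ p ∈ antidiagonal s, (g p.1 (p.2 + 1 + 1) - g (p.1 + 1) (p.2 + 1)) := by
    rw [← Finset.sum_neg_distrib]
    exact Finset.sum_congr rfl fun p _ => (neg_sub _ _).symm
  rw [h3, h2]
  simp only [zero_add]
  abel

theorem gsumHX (X : A) (s : ℕ) : ∑ p ∈ antidiagonal s,
    (2 * S.H (S.E ^ (p.1 + 1)) (S.E ^ (p.2 + 1) * X) - S.H (S.E ^ (p.1 + 2)) (S.E ^ p.2 * X)
      - S.H (S.E ^ p.1) (S.E ^ (p.2 + 2) * X)) =
      S.H S.E (S.E ^ (s + 1) * X) + S.H (S.E ^ (s + 1)) (S.E * X) - S.H (S.E ^ (s + 2)) X := by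
  have h2 := tele2 (fun i j => S.H (S.E ^ i) (S.E ^ j * X)) s
  simp only [pow_zero, one_mul, pow_one] at h2
  have h3 : S.H 1 (S.E ^ (s + 2) * X) = 0 := by rw [H_comm, H_one]
  rw [h3] at h2
  have h4 : ∀ p ∈ antidiagonal s,
      (2 * S.H (S.E ^ (p.1 + 1)) (S.E ^ (p.2 + 1) * X) - S.H (S.E ^ (p.1 + 2)) (S.E ^ p.2 * X)
      - S.H (S.E ^ p.1) (S.E ^ (p.2 + 2) * X)) =
      (S.H (S.E ^ (p.1 + 1)) (S.E ^ (p.2 + 1) * X) - S.H (S.E ^ (p.1 + 2)) (S.E ^ p.2 * X)) +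
      (S.H (S.E ^ (p.1 + 1)) (S.E ^ (p.2 + 1) * X) - S.H (S.E ^ p.1) (S.E ^ (p.2 + 2) * X)) := by
    intro p _
    ring
  rw [Finset.sum_congr rfl h4, h2]
  ring

theorem gsumTX (X : A) (s : ℕ) : ∑ p ∈ antidiagonal s, T S (S.E ^ p.1) (S.E ^ p.2 * X) =
    (s + 1) • (S.d (S.E ^ (s + 1) * X) + S.E ^ s * X * S.d S.E - S.E * S.d (S.E ^ s * X))
      + (S.E ^ (s + 1) * S.d X - S.d (S.E ^ (s + 1) * X) - X * S.d (S.E ^ (s + 1))) := by
  have h0 : ∀ p ∈ antidiagonal s, T S (S.E ^ p.1) (S.E ^ p.2 * X) =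
      -((S.E ^ p.1 * S.d (S.E ^ (p.2 + 1) * X) - S.E ^ (p.1 + 1) * S.d (S.E ^ p.2 * X)))
      + X * (S.E ^ (p.2 + 1) * S.d (S.E ^ p.1) - S.E ^ p.2 * S.d (S.E ^ (p.1 + 1)))
      + (S.d (S.E ^ (s + 1) * X) + S.E ^ s * X * S.d S.E - S.E * S.d (S.E ^ s * X)) := by
    intro p hp
    rw [Finset.HasAntidiagonal.mem_antidiagonal] at hp
    unfold T
    have e1 : S.E ^ p.2 * X * S.E = S.E ^ (p.2 + 1) * X := by ring
    have e2 : S.E ^ p.1 * (S.E ^ p.2 * X) * S.E = S.E ^ (s + 1) * X := by rw [← hp]; ring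
    have e3 : S.E ^ p.1 * (S.E ^ p.2 * X) = S.E ^ s * X := by rw [← hp]; ring
    have e4 : S.E ^ p.1 * S.E = S.E ^ (p.1 + 1) := by ring
    rw [e2, e3, e1, e4]
    ring
  have h2 := tele (fun i l => S.E ^ i * S.d (S.E ^ l * X)) s
  have h3 := tele (fun i l => S.E ^ l * S.d (S.E ^ i)) s
  simp only [pow_zero, S.d_one, mul_zero, one_mul, zero_sub] at h2 h3
  rw [Finset.sum_congr rfl h0, Finset.sum_add_distrib, Finset.sum_add_distrib,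
    Finset.sum_neg_distrib, h2, ← Finset.mul_sum, h3, Finset.sum_const,
    Finset.Nat.card_antidiagonal]
  ring

theorem nab_diff (X : A) (s : ℕ) : S.nab X (S.E ^ (s + 2)) - S.nab (S.E * X) (S.E ^ (s + 1)) =
    X * S.E ^ (s + 1) + X * S.d (S.E ^ (s + 1)) - S.E ^ (s + 1) * S.d X := by
  rw [H920.nab_pow, H920.nab_pow, H920.P_succ, H920.P_E_mul, show s + 2 - 1 = s + 1 from rfl,
    Nat.add_sub_cancel]
  push_cast
  ring

/-- the part with `G` -/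
theorem gpartX (X : A) (s : ℕ) : ∑ p ∈ antidiagonal s,
    ((2 * S.H (S.E ^ p.1 * S.E) (S.E * (S.E ^ p.2 * X))
      + S.H (S.E ^ p.1 * (S.E ^ p.2 * X)) (S.E * S.E)
      - S.H (S.E ^ p.1 * S.E * S.E) (S.E ^ p.2 * X)
      - S.H (S.E * S.E * (S.E ^ p.2 * X)) (S.E ^ p.1)
      - 2 * S.H (S.E ^ p.1 * S.E * (S.E ^ p.2 * X)) S.E)
      + S.G (T S (S.E ^ p.1) (S.E ^ p.2 * X))) =
    (s + 1) * S.der (S.E ^ s * X) (S.G (S.E ^ 2)) - S.der X (S.G (S.E ^ (s + 2)))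
      + S.der (S.E * X) (S.G (S.E ^ (s + 1))) := by
  have h0 : ∀ p ∈ antidiagonal s,
    ((2 * S.H (S.E ^ p.1 * S.E) (S.E * (S.E ^ p.2 * X))
      + S.H (S.E ^ p.1 * (S.E ^ p.2 * X)) (S.E * S.E)
      - S.H (S.E ^ p.1 * S.E * S.E) (S.E ^ p.2 * X)
      - S.H (S.E * S.E * (S.E ^ p.2 * X)) (S.E ^ p.1)
      - 2 * S.H (S.E ^ p.1 * S.E * (S.E ^ p.2 * X)) S.E)
      + S.G (T S (S.E ^ p.1) (S.E ^ p.2 * X))) =
      (2 * S.H (S.E ^ (p.1 + 1)) (S.E ^ (p.2 + 1) * X) - S.H (S.E ^ (p.1 + 2)) (S.E ^ p.2 * X)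
      - S.H (S.E ^ p.1) (S.E ^ (p.2 + 2) * X))
      + (S.H (S.E ^ s * X) (S.E * S.E) - 2 * S.H (S.E ^ (s + 1) * X) S.E)
      + S.G (T S (S.E ^ p.1) (S.E ^ p.2 * X)) := by
    intro p hp
    rw [Finset.HasAntidiagonal.mem_antidiagonal] at hp
    have e1 : S.E ^ p.1 * S.E = S.E ^ (p.1 + 1) := by ring
    have e2 : S.E * (S.E ^ p.2 * X) = S.E ^ (p.2 + 1) * X := by ring
    have e3 : S.E ^ p.1 * (S.E ^ p.2 * X) = S.E ^ s * X := by rw [← hp]; ring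
    have e4 : S.E ^ p.1 * S.E * S.E = S.E ^ (p.1 + 2) := by ring
    have e5 : S.E * S.E * (S.E ^ p.2 * X) = S.E ^ (p.2 + 2) * X := by ring
    have e6 : S.E ^ p.1 * S.E * (S.E ^ p.2 * X) = S.E ^ (s + 1) * X := by rw [← hp]; ring
    rw [e4, e6, e5, e3, e1, e2, H_comm S (S.E ^ (p.2 + 2) * X) (S.E ^ p.1)]
    ring
  rw [Finset.sum_congr rfl h0, Finset.sum_add_distrib, Finset.sum_add_distrib, gsumHX,
    Finset.sum_const, Finset.Nat.card_antidiagonal, ← map_sum, gsumTX, map_add, map_nsmul,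
    map_sub, map_add, nsmul_eq_mul, nsmul_eq_mul]
  have h1 : S.H S.E (S.E ^ (s + 1) * X) =
      S.G (S.d (S.E ^ (s + 1) * X)) - S.G (S.E ^ (s + 1) * X) := by rw [H_comm, H_E]
  have h2 : S.H (S.E ^ (s + 1)) (S.E * X) = S.der (S.E * X) (S.G (S.E ^ (s + 1)))
      - S.G (S.nab (S.E * X) (S.E ^ (s + 1))) := by rw [H_comm]; rfl
  have h3 : S.H (S.E ^ (s + 2)) X = S.der X (S.G (S.E ^ (s + 2)))
      - S.G (S.nab X (S.E ^ (s + 2))) := by rw [H_comm]; rfl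
  have h4 := congrArg S.G (nab_diff S X s)
  have h5 : S.E ^ s * X * S.E = S.E ^ (s + 1) * X := by ring
  have h6 : X * S.E ^ (s + 1) = S.E ^ (s + 1) * X := mul_comm _ _
  have h7 : S.E ^ 2 = S.E * S.E := by ring
  rw [map_sub, map_sub, map_add, h6] at h4
  have h8 : S.G (S.E ^ (s + 1) * S.d X - S.d (S.E ^ (s + 1) * X) - X * S.d (S.E ^ (s + 1))) =
      S.G (S.E ^ (s + 1) * S.d X) - S.G (S.d (S.E ^ (s + 1) * X))
        - S.G (X * S.d (S.E ^ (s + 1))) := by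
    rw [map_sub, map_sub]
  rw [h1, h2, h3, h8, H_EE, H_E, h5, h7]
  push_cast
  linear_combination h4

end Vale.Agent.P269.G2.H598.KX
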