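import Vale.Agent.P269.G2.H598.MTools

/-!
# [M1] the quantum product on the full small phase space
-/

namespace Vale.Agent.P269.G2.H598

open Finset.HasAntidiagonal (antidiagonal)
open Vale.Agent.P269.CI
open Vale.Agent.P269.G1.H598 (lowerSum_zero)

variable {X : CompleteIntersection} {F : ℕ → ℕ → List (Ins X) → ℂ}

/-- **[M1]** -/
theorem qc_comm (hF : IsGW X F) (he : Even X.dim) (a b c : Ix X) : qc F a b c = qc F b a c := by
  unfold qc
  refine Finset.sum_congr rfl fun l _ => ?_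
  exact congrArg _ (cor_perm hF he 0 (List.Perm.swap _ _ _))

/-- WDVV -/
theorem wdvv (hF : IsGW X F) (he : Even X.dim) (a x y z : Ix X) :
    ∑ p : Ix X, ∑ k : Ix X, pairingInv X p k •
      (sr (E0 X) (cor F 0 [(k, 0), (x, 0), (y, 0)]) *
        sr (E0 X) (cor F 0 [(z, 0), (a, 0), (p, 0)])) =
    ∑ p : Ix X, ∑ k : Ix X, pairingInv X p k •
      (sr (E0 X) (cor F 0 [(k, 0), (x, 0), (z, 0)]) *
        sr (E0 X) (cor F 0 [(y, 0), (a, 0), (p, 0)])) := by
  have der : ∀ y z : Ix X, sr (E0 X) (cor F 0 [(z, 0), (a, 1), (x, 0), (y, 0)]) =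
      (∑ α, ∑ β, pairingInv X α β • (sr (E0 X) (cor F 0 [(z, 0), (β, 0), (x, 0), (y, 0)]) *
        sr (E0 X) (cor F 0 [(a, 0), (α, 0)]))) +
      ∑ p : Ix X, ∑ k : Ix X, pairingInv X p k •
      (sr (E0 X) (cor F 0 [(k, 0), (x, 0), (y, 0)]) *
        sr (E0 X) (cor F 0 [(z, 0), (a, 0), (p, 0)])) := by
    intro y z
    have h2 := congrArg (pd z) (trr_sM hF he a 0 (x, 0) (y, 0))
    rw [pd_cor hF he, pd_sum] at h2
    rw [h2, ← Finset.sum_add_distrib]
    refine Finset.sum_congr rfl fun p _ => ?_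
    rw [pd_sum, ← Finset.sum_add_distrib]
    refine Finset.sum_congr rfl fun k _ => ?_
    rw [pd_smul, pd_mul, pd_cor hF he, pd_cor hF he, smul_add]
  have s1 := der y z
  have s2 := der z y
  have s3 : sr (E0 X) (cor F 0 [(z, 0), (a, 1), (x, 0), (y, 0)]) =
      sr (E0 X) (cor F 0 [(y, 0), (a, 1), (x, 0), (z, 0)]) := by
    refine cor_perm hF he 0 ?_
    have e1 : [((z, 0) : Ins X), (a, 1), (x, 0), (y, 0)].Perm
        ((y, 0) :: [(z, 0), (a, 1), (x, 0)]) :=
      (List.perm_append_singleton (y, 0) [(z, 0), (a, 1), (x, 0)])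
    have e2 : ((y, 0) :: [((z, 0) : Ins X), (a, 1), (x, 0)]).Perm
        ((y, 0) :: [(a, 1), (x, 0), (z, 0)]) :=
      List.Perm.cons _ (List.perm_append_singleton (z, 0) [(a, 1), (x, 0)]).symm
    exact e1.trans e2
  have s4 : ∀ β : Ix X, sr (E0 X) (cor F 0 [(z, 0), (β, 0), (x, 0), (y, 0)]) =
      sr (E0 X) (cor F 0 [(y, 0), (β, 0), (x, 0), (z, 0)]) := by
    intro β
    refine cor_perm hF he 0 ?_
    have e1 : [((z, 0) : Ins X), (β, 0), (x, 0), (y, 0)].Perm
        ((y, 0) :: [(z, 0), (β, 0), (x, 0)]) :=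
      (List.perm_append_singleton (y, 0) [(z, 0), (β, 0), (x, 0)])
    have e2 : ((y, 0) :: [((z, 0) : Ins X), (β, 0), (x, 0)]).Perm
        ((y, 0) :: [(β, 0), (x, 0), (z, 0)]) :=
      List.Perm.cons _ (List.perm_append_singleton (z, 0) [(β, 0), (x, 0)]).symm
    exact e1.trans e2
  rw [s3, s2] at s1
  have s5 : (∑ α, ∑ β, pairingInv X α β •
        (sr (E0 X) (cor F 0 [(z, 0), (β, 0), (x, 0), (y, 0)]) *
        sr (E0 X) (cor F 0 [(a, 0), (α, 0)]))) =
      (∑ α, ∑ β, pairingInv X α β • (sr (E0 X) (cor F 0 [(y, 0), (β, 0), (x, 0), (z, 0)]) *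
        sr (E0 X) (cor F 0 [(a, 0), (α, 0)]))) := by
    refine Finset.sum_congr rfl fun α _ => Finset.sum_congr rfl fun β _ => ?_
    rw [s4 β]
  rw [s5] at s1
  exact (add_left_cancel s1).symm

/-- **[M1]** WDVV -/
theorem qc_assoc (hF : IsGW X F) (he : Even X.dim) (i j l m : Ix X) :
    ∑ k, qc F i j k * qc F k l m = ∑ k, qc F j l k * qc F i k m := by
  have e1 : ∀ i j l m : Ix X, ∑ k, qc F i j k * qc F k l m =
      ∑ s : Ix X, pairingInv X s m •
        ∑ p : Ix X, ∑ k : Ix X, pairingInv X p k •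
          (sr (E0 X) (cor F 0 [(k, 0), (l, 0), (s, 0)]) *
            sr (E0 X) (cor F 0 [(i, 0), (j, 0), (p, 0)])) := by
    intro i j l m
    unfold qc
    simp only [Finset.sum_mul_sum, Finset.smul_sum]
    rw [Finset.sum_comm]
    conv_lhs => enter [2, p]; rw [Finset.sum_comm]
    rw [Finset.sum_comm]
    refine Finset.sum_congr rfl fun s _ => Finset.sum_congr rfl fun p _ =>
      Finset.sum_congr rfl fun k _ => ?_
    rw [smul_mul_smul_comm, smul_smul, mul_comm (pairingInv X p k)]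
    congr 1
    ring
  have e2 : ∑ k, qc F j l k * qc F i k m = ∑ k, qc F l j k * qc F k i m := by
    refine Finset.sum_congr rfl fun k _ => ?_
    rw [qc_comm hF he j l, qc_comm hF he i k]
  rw [e2, e1, e1]
  refine Finset.sum_congr rfl fun s _ => ?_
  congr 1
  have h := wdvv hF he j s l i
  have h3 : ∀ k x y : Ix X, sr (E0 X) (cor F 0 [(k, 0), (x, 0), (y, 0)]) =
      sr (E0 X) (cor F 0 [(k, 0), (y, 0), (x, 0)]) := fun k x y =>
    cor_perm hF he 0 (List.Perm.cons _ (List.Perm.swap _ _ _))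
  calc _ = ∑ p : Ix X, ∑ k : Ix X,
        pairingInv X p k •
          (sr (E0 X) (cor F 0 [(k, 0), (s, 0), (l, 0)]) *
            sr (E0 X) (cor F 0 [(i, 0), (j, 0), (p, 0)])) := by
        refine Finset.sum_congr rfl fun p _ => Finset.sum_congr rfl fun k _ => ?_
        rw [h3 k l s]
    _ = _ := by
        rw [h]
        refine Finset.sum_congr rfl fun p _ => Finset.sum_congr rfl fun k _ => ?_
        rw [h3 k s i]

/-- **[M1]** string equation -/
theorem qc_unit (hF : IsGW X F) (he : Even X.dim) (j k : Ix X) :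
    qc F (one X) j k = if j = k then 1 else 0 := by
  have h1 : ∀ l : Ix X, sr (E0 X) (cor F 0 [(one X, 0), (j, 0), (l, 0)]) =
      cb (nx X) (pairing X j l) := by
    intro l
    rw [← sM_const]
    refine sM_congr fun d L => ?_
    have h2 := hF.string 0 d ([(j, 0), (l, 0)] ++ L.map fun a => (a, 0))
    rw [lowerSum_zero, zero_add] at h2
    · change F 0 d ((one X, 0) :: ([(j, 0), (l, 0)] ++ L.map fun a => (a, 0))) = _
      rw [h2]
      cases L with
      | nil =>
        by_cases hd : d = 0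
        · simp [pairTerm, hd]
        · simp [hd]
      | cons a L => simp [pairTerm]
    · intro x hx
      rcases List.mem_append.1 hx with h | h
      · rcases List.mem_cons.1 h with h | h
        · rw [h]
        · rcases List.mem_cons.1 h with h | h
          · rw [h]
          · simp at h
      · obtain ⟨i, _, rfl⟩ := List.mem_map.1 h
        rfl
  unfold qc
  simp only [h1]
  have h3 : ∀ c d : ℂ, c • cb (nx X) d = cb (nx X) (c * d) := by
    intro c d
    rw [smul_RM]
    unfold cb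
    rw [← map_mul, ← map_mul]
  simp only [h3]
  have h4 : ∀ f : Ix X → ℂ, ∑ l, cb (nx X) (f l) = cb (nx X) (∑ l, f l) := by
    intro f
    unfold cb
    rw [map_sum, map_sum]
  rw [h4]
  have h5 : ∑ l, pairingInv X l k * pairing X j l = if j = k then 1 else 0 := by
    rw [← pairing_inv_sum X j k]
    exact Finset.sum_congr rfl fun l _ => mul_comm _ _
  rw [h5]
  split_ifs
  · unfold cb; simp
  · unfold cb; simp

end Vale.Agent.P269.G2.H598
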