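import Vale.Agent.P269.G2.CSpec
import Vale.Agent.P269.G1.H276.Pow

/-!
# Cubic hypersurfaces: the powers of the Euler field at the origin
-/

namespace Vale.Agent.P269.G2.H598.OgEu

open Finset.HasAntidiagonal (antidiagonal)
open Vale.Agent.P269.CI
open Vale.Agent.P269.G1 (RR ser cst lamc Eu lam AA cq)
open Vale.Agent.P269.G1.H276 (ev0_pow pInv_inl cc_qmul shN_pow index_eq)

variable {X : CompleteIntersection} {F : ℕ → ℕ → List (Ins X) → ℂ}

theorem excess_three (hd : X.degs = [3]) : excess X = 2 := by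
  unfold excess
  rw [hd]
  rfl

theorem index_three (hd : X.degs = [3]) : index X = (X.dim : ℤ) - 1 := by
  have h := index_eq X
  rw [excess_three hd] at h
  push_cast at h
  omega

theorem index_cast (hd : X.degs = [3]) : (index X : ℂ) = (X.dim : ℂ) - 1 := by
  rw [index_three hd]
  push_cast
  ring

theorem prod_three (hd : X.degs = [3]) : (X.degs.map fun d => (d : ℂ) ^ d).prod = 27 := by
  rw [hd]
  have h : ((3 : ℕ) : ℂ) ^ ((3 : ℕ) : ℂ) = 27 := by
    rw [Complex.cpow_natCast]
    norm_num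
  exact (mul_one _).trans h

/-- the grading of the quantum multiplication by `h` -/
theorem qmul_deg (hF : IsGW X F) (i j : Fin (X.dim + 1)) (d : ℕ)
    (h : PowerSeries.coeff d (qmul F i j) ≠ 0) : ((i : ℕ) : ℤ) + 1 = (j : ℕ) + index X * d := by
  unfold qmul at h
  rw [Matrix.of_apply, map_sum] at h
  obtain ⟨k, _, hk⟩ := Finset.exists_ne_zero_of_sum_ne_zero h
  rw [PowerSeries.coeff_mul_C, PowerSeries.coeff_mk, pInv_inl] at hk
  have h1 := left_ne_zero_of_mul hk
  have h2 := right_ne_zero_of_mul hk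
  have h3 : (k : ℕ) + j = X.dim := by
    by_contra h4
    exact h2 (if_neg h4)
  have h5 := hF.grading_p 0 d _ h1
  simp only [List.map_cons, List.map_nil, List.sum_cons, List.sum_nil, hp, hcls, hpow] at h5
  have h6 : ((k : ℕ) : ℤ) + (j : ℕ) = X.dim := by exact_mod_cast h3
  push_cast at h5
  linarith

/-- the grading of the powers of the quantum multiplication by `h` -/
theorem qmul_pow_deg (hF : IsGW X F) (n : ℕ) (i k : Fin (X.dim + 1)) (d : ℕ)
    (h : PowerSeries.coeff d (((qmul F) ^ n) i k) ≠ 0) :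
    ((i : ℕ) : ℤ) + n = (k : ℕ) + index X * d := by
  induction n generalizing k d with
  | zero =>
    rw [pow_zero, Matrix.one_apply] at h
    by_cases hk : i = k
    · subst hk
      rw [if_pos rfl, PowerSeries.coeff_one] at h
      have hd : d = 0 := by
        by_contra h2
        exact h (if_neg h2)
      subst hd
      simp
    · rw [if_neg hk] at h
      exact absurd (map_zero _) h
  | succ n ih =>
    rw [pow_succ, Matrix.mul_apply, map_sum] at h
    obtain ⟨l, _, hl⟩ := Finset.exists_ne_zero_of_sum_ne_zero h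
    rw [PowerSeries.coeff_mul] at hl
    obtain ⟨e, he, hl2⟩ := Finset.exists_ne_zero_of_sum_ne_zero hl
    have h1 := ih l e.1 (left_ne_zero_of_mul hl2)
    have h2 := qmul_deg hF l k e.2 (right_ne_zero_of_mul hl2)
    have h3 : e.1 + e.2 = d := Finset.HasAntidiagonal.mem_antidiagonal.mp he
    have h4 : ((e.1 : ℕ) : ℤ) + (e.2 : ℕ) = d := by exact_mod_cast h3
    rw [← h4]
    push_cast
    linarith

theorem qmul_pow_last (hF : IsGW X F) (hX : 4 ≤ X.dim) (hd : X.degs = [3]) (n : ℕ)
    (hn : n ≤ X.dim) : ((qmul F) ^ n) 0 (Fin.last X.dim) = if n = X.dim then 1 else 0 := by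
  ext d
  by_cases hz : d = 0 ∧ n = X.dim
  · obtain ⟨h1, h2⟩ := hz
    subst h1
    rw [if_pos h2, PowerSeries.coeff_one, if_pos rfl, PowerSeries.coeff_zero_eq_constantCoeff]
    have h3 : PowerSeries.constantCoeff (((qmul F) ^ n) 0 (Fin.last X.dim)) =
        (((qmul F) ^ n).map (PowerSeries.constantCoeff (R := ℂ))) 0 (Fin.last X.dim) := rfl
    rw [h3, Matrix.map_pow, cc_qmul hF, shN_pow, if_pos]
    rw [Fin.val_last, h2]
  · have h1 : PowerSeries.coeff d (((qmul F) ^ n) 0 (Fin.last X.dim)) = 0 := by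
      by_contra h2
      have h3 := qmul_pow_deg hF n 0 (Fin.last X.dim) d h2
      rw [Fin.val_last, Fin.val_zero, index_three hd] at h3
      apply hz
      have h4 : (4 : ℤ) ≤ X.dim := by exact_mod_cast hX
      have h5 : (n : ℤ) ≤ X.dim := by exact_mod_cast hn
      have h6 : (d : ℤ) = 0 := by
        rcases Nat.eq_zero_or_pos d with h7 | h7
        · rw [h7]; rfl
        · have h8 : (1 : ℤ) ≤ d := by exact_mod_cast h7
          push_cast at h3
          nlinarith
      refine ⟨by exact_mod_cast h6, ?_⟩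
      rw [h6] at h3
      push_cast at h3
      have h9 : (n : ℤ) = X.dim := by linarith
      exact_mod_cast h9
    rw [h1]
    by_cases h2 : n = X.dim
    · rw [if_pos h2, PowerSeries.coeff_one, if_neg]
      exact fun h3 => hz ⟨h3, h2⟩
    · rw [if_neg h2, map_zero]

/-- **[J2a]** the coefficient of `h^r` in the powers of the Euler field at the origin -/
theorem og_Eu_last (hF : IsGW X F) (h1 : IsGenusOne F) (hX : 4 ≤ X.dim) (hd : X.degs = [3])
    (k : ℕ) (hk : k ≤ X.dim) : og ((Eu hF h1 ^ k : AA hF h1) (Fin.last X.dim)) =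
      if k = X.dim then PowerSeries.C (((X.dim : ℂ) - 1) ^ X.dim) else 0 := by
  have h := ev0_pow hF h1 k (Fin.last X.dim)
  rw [qmul_pow_last hF hX hd k hk, index_cast hd] at h
  refine h.trans ?_
  by_cases h2 : k = X.dim
  · rw [if_pos h2, if_pos h2, mul_one, h2]
  · rw [if_neg h2, if_neg h2, mul_zero]

theorem qmul_rel (h1 : IsGenusOne F) (hX : 4 ≤ X.dim) (hd : X.degs = [3])
    (k : ℕ) (j : Fin (X.dim + 1)) : ((qmul F) ^ (k + X.dim + 1)) 0 j =
      PowerSeries.C 27 * PowerSeries.X * ((qmul F) ^ (k + 2)) 0 j := by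
  have hi : 2 ≤ index X := by
    rw [index_three hd]
    have : (4 : ℤ) ≤ X.dim := by exact_mod_cast hX
    linarith
  have hq := h1.quantum hi
  rw [excess_three hd, prod_three hd] at hq
  have e1 : k + X.dim + 1 = (X.dim + 1) + k := by ring
  have e2 : k + 2 = 2 + k := by ring
  rw [e1, e2, pow_add (qmul F) (X.dim + 1) k, pow_add (qmul F) 2 k, Matrix.mul_apply,
    Matrix.mul_apply, Finset.mul_sum]
  refine Finset.sum_congr rfl fun l _ => ?_
  rw [hq l]
  ring

/-- **[J2b]** `E ^ (r + 1) = 27 ν ^ (r - 1) q E ^ 2` at the origin -/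
theorem og_Eu_rel (hF : IsGW X F) (h1 : IsGenusOne F) (hX : 4 ≤ X.dim) (hd : X.degs = [3])
    (k : ℕ) (j : Fin (X.dim + 1)) : og ((Eu hF h1 ^ (k + X.dim + 1) : AA hF h1) j) =
      PowerSeries.C (27 * ((X.dim : ℂ) - 1) ^ (X.dim - 1)) * PowerSeries.X *
        og ((Eu hF h1 ^ (k + 2) : AA hF h1) j) := by
  have e1 := ev0_pow hF h1 (k + X.dim + 1) j
  have e2 := ev0_pow hF h1 (k + 2) j
  rw [index_cast hd] at e1 e2
  refine e1.trans ?_
  have e3 : og ((Eu hF h1 ^ (k + 2) : AA hF h1) j) =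
      PowerSeries.C (((X.dim : ℂ) - 1) ^ (k + 2)) * ((qmul F) ^ (k + 2)) 0 j := e2
  rw [e3, qmul_rel h1 hX hd]
  have e4 : ((X.dim : ℂ) - 1) ^ (k + X.dim + 1) =
      ((X.dim : ℂ) - 1) ^ (X.dim - 1) * ((X.dim : ℂ) - 1) ^ (k + 2) := by
    rw [← pow_add]
    congr 1
    omega
  rw [e4, map_mul, map_mul]
  ring


end Vale.Agent.P269.G2.H598.OgEu
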