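import Vale.Agent.P269.G2.CSpec
import Vale.Agent.P269.G1.H276.Pow
import Vale.Agent.P269.G2.H598.OgEu
import Vale.Agent.P269.G2.H984.Alpha

/-!
# Cubic hypersurfaces: the trace of the multiplication by `E ^ ν` at the origin
-/

namespace Vale.Agent.P269.G2.H598.OgTrace

open Vale.Agent.P269.CI
open Vale.Agent.P269.G1 (RR ser cst lamc Eu lam AA cq)
open Vale.Agent.P269.G2.H333 (ev0)
open Vale.Agent.P269.G2.H984 (RF rhoc dP aM)
open Vale.Agent.P269.G2.H598.OgEu (og_Eu_rel index_three excess_three)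

variable {X : CompleteIntersection} {F : ℕ → ℕ → List (Ins X) → ℂ}

/-- restriction to the ambient points -/
noncomputable def fe (X : CompleteIntersection) : RM X →+* RR X :=
  (ev0 (ι := Fin (X.dim + 1)) (κ := X.Prim) (A := PowerSeries ℂ)).comp (phi X)

theorem fe_mat_pow (hF : IsGW X F) (he : Even X.dim) (h1 : IsGenusOne F) (n : ℕ) (c b : Ix X) :
    fe X (QA.mat (consts hF he) (EM hF he ^ n) c b) =
      ∑ k : Fin (X.dim + 1), (Eu hF h1 ^ n : AA hF h1) k *
        ev0 (phi X (qc F (Sum.inl k) b c)) := by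
  rw [QA.mat_apply, map_sum, Fintype.sum_sum_type]
  have h2 : ∑ v : X.Prim, fe X ((EM hF he ^ n : AM hF he) (Sum.inr v) *
      (consts hF he).c (Sum.inr v) b c) = 0 := by
    refine Finset.sum_eq_zero fun v _ => ?_
    rw [map_mul]
    have : fe X ((EM hF he ^ n : AM hF he) (Sum.inr v)) = 0 := ev0_pow_inr hF he h1 n v
    rw [this, zero_mul]
  rw [h2, add_zero]
  refine Finset.sum_congr rfl fun k _ => ?_
  rw [map_mul]
  have : fe X ((EM hF he ^ n : AM hF he) (Sum.inl k)) = (Eu hF h1 ^ n : AA hF h1) k :=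
    ev0_pow_inl hF he h1 n k
  rw [this]
  rfl

theorem lam_pow (hF : IsGW X F) (h1 : IsGenusOne F) (n : ℕ) (v : X.Prim) :
    ∑ k, (Eu hF h1 ^ n : AA hF h1) k * lamc h1 k = ((lam hF h1 (Eu hF h1)) v) ^ n := by
  have h : (lam hF h1 (Eu hF h1 ^ n)) v = ((lam hF h1 (Eu hF h1)) v) ^ n := by
    rw [map_pow, Pi.pow_apply]
  exact h

theorem fe_trace (hF : IsGW X F) (he : Even X.dim) (h1 : IsGenusOne F) (n : ℕ) :
    fe X (Matrix.trace (QA.mat (consts hF he) (EM hF he ^ n))) =
      (∑ i, ∑ k, (Eu hF h1 ^ n : AA hF h1) k * G1.qc F k i i) +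
        ∑ v : X.Prim, ((lam hF h1 (Eu hF h1)) v) ^ n := by
  unfold Matrix.trace
  rw [map_sum, Fintype.sum_sum_type]
  congr 1
  · refine Finset.sum_congr rfl fun i _ => ?_
    rw [Matrix.diag_apply, fe_mat_pow hF he h1]
    exact Finset.sum_congr rfl fun k _ => by rw [ev0_qc_inl hF he]
  · refine Finset.sum_congr rfl fun v _ => ?_
    rw [Matrix.diag_apply, fe_mat_pow hF he h1, ← lam_pow]
    exact Finset.sum_congr rfl fun k _ => by rw [ev0_qc_two hF he h1, if_pos rfl]

theorem og_mul (f g : RR X) : og (f * g) = og f * og g := map_mul _ f g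

theorem og_sum {ι : Type*} (s : Finset ι) (f : ι → RR X) : og (∑ i ∈ s, f i) = ∑ i ∈ s, og (f i) :=
  map_sum _ f s

theorem og_pow (f : RR X) (n : ℕ) : og (f ^ n) = og f ^ n := map_pow _ f n

theorem cub_ne (hX : 4 ≤ X.dim) : (27 * ((X.dim : ℂ) - 1) ^ (X.dim - 1)) ≠ 0 := by
  have h : ((X.dim : ℂ) - 1) ≠ 0 := by
    rw [sub_ne_zero]
    have : X.dim ≠ 1 := by omega
    exact_mod_cast this
  exact mul_ne_zero (by norm_num) (pow_ne_zero _ h)

/-- the character of the primitive part vanishes at the Euler field at the origin -/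
theorem og_lam (hF : IsGW X F) (h1 : IsGenusOne F) (hX : 4 ≤ X.dim) (hd : X.degs = [3])
    (v : X.Prim) : og ((lam hF h1 (Eu hF h1)) v) = 0 := by
  refine H984.root_zero (m := 2) (ν := X.dim - 1) (by omega) _ (cub_ne hX) _ ?_
  have e : 2 + (X.dim - 1) = 0 + X.dim + 1 := by omega
  rw [e, ← og_pow, ← og_pow, ← lam_pow, ← lam_pow, og_sum, og_sum, Finset.mul_sum]
  refine Finset.sum_congr rfl fun k _ => ?_
  rw [og_mul, og_mul, og_Eu_rel hF h1 hX hd 0 k, mul_assoc]

/-- the matrix of the coordinates of the powers of the Euler field at the origin -/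
noncomputable def W (hF : IsGW X F) (h1 : IsGenusOne F) :
    Matrix (Fin (X.dim + 1)) (Fin (X.dim + 1)) (PowerSeries ℂ) :=
  Matrix.of fun i j => og ((Eu hF h1 ^ (j : ℕ) : AA hF h1) i)

/-- the matrix of the multiplication by `E ^ n` at the origin -/
noncomputable def M (hF : IsGW X F) (h1 : IsGenusOne F) (n : ℕ) :
    Matrix (Fin (X.dim + 1)) (Fin (X.dim + 1)) (PowerSeries ℂ) :=
  Matrix.of fun i l => ∑ k, og ((Eu hF h1 ^ n : AA hF h1) k) * og (G1.qc F k l i)

/-- the matrix of the multiplication by `E ^ n` in the basis of the powers -/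
noncomputable def D (X : CompleteIntersection) (c : PowerSeries ℂ) :
    Matrix (Fin (X.dim + 1)) (Fin (X.dim + 1)) (PowerSeries ℂ) :=
  Matrix.of fun l j => if (j : ℕ) < 2 then (if (l : ℕ) = j + (X.dim - 1) then 1 else 0) else
    (if l = j then c else 0)

theorem isUnit_W (hF : IsGW X F) (h1 : IsGenusOne F) (hi : index X ≠ 0) :
    IsUnit (W hF h1).det := by
  have h := G1.H276.isUnit_ev0_det hF h1 hi
  rw [RingHom.map_det, RingHom.mapMatrix_apply] at h
  exact h

theorem M_mul_W (hF : IsGW X F) (h1 : IsGenusOne F) (n : ℕ) (i j : Fin (X.dim + 1)) :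
    (M hF h1 n * W hF h1) i j = og ((Eu hF h1 ^ (n + j) : AA hF h1) i) := by
  rw [pow_add, G1.QA.mul_def, og_sum, Matrix.mul_apply]
  simp only [og_sum]
  rw [Finset.sum_comm]
  refine Finset.sum_congr rfl fun l _ => ?_
  change (∑ k, og ((Eu hF h1 ^ n : AA hF h1) k) * og (G1.qc F k l i)) *
    og ((Eu hF h1 ^ (j : ℕ) : AA hF h1) l) = _
  rw [Finset.sum_mul]
  refine Finset.sum_congr rfl fun k _ => ?_
  rw [og_mul, og_mul]
  change _ = _ * _ * og (G1.qc F k l i)
  ring

theorem M_W (hF : IsGW X F) (h1 : IsGenusOne F) (hX : 4 ≤ X.dim) (hd : X.degs = [3]) :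
    M hF h1 (X.dim - 1) * W hF h1 = W hF h1 *
      D X (PowerSeries.C (27 * ((X.dim : ℂ) - 1) ^ (X.dim - 1)) * PowerSeries.X) := by
  refine Matrix.ext fun i j => ?_
  rw [M_mul_W, Matrix.mul_apply]
  by_cases hj : (j : ℕ) < 2
  · rw [Finset.sum_eq_single (⟨j + (X.dim - 1), by omega⟩ : Fin (X.dim + 1))]
    · unfold D W
      rw [Matrix.of_apply, Matrix.of_apply, if_pos hj, if_pos rfl, mul_one,
        add_comm (X.dim - 1) (j : ℕ)]
    · intro l _ hl
      unfold D
      rw [Matrix.of_apply, if_pos hj, if_neg, mul_zero]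
      exact fun h => hl (Fin.ext h)
    · simp
  · rw [Finset.sum_eq_single j]
    · unfold D W
      rw [Matrix.of_apply, Matrix.of_apply, if_neg hj, if_pos rfl]
      have e : X.dim - 1 + (j : ℕ) = ((j : ℕ) - 2) + X.dim + 1 := by omega
      have e2 : (j : ℕ) - 2 + 2 = j := by omega
      rw [e, og_Eu_rel hF h1 hX hd, e2, mul_comm]
    · intro l _ hl
      unfold D
      rw [Matrix.of_apply, if_neg hj, if_neg hl, mul_zero]
    · simp

theorem sum_two (c : PowerSeries ℂ) (n : ℕ) :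
    ∑ i ∈ Finset.range (n + 2), (if i < 2 then 0 else c) = (n : PowerSeries ℂ) * c := by
  induction n with
  | zero => simp [Finset.sum_range_succ]
  | succ n ih =>
    rw [Finset.sum_range_succ, ih, if_neg (by omega)]
    push_cast
    ring

theorem trace_D (hX : 4 ≤ X.dim) (c : PowerSeries ℂ) :
    (D X c).trace = ((X.dim - 1 : ℕ) : PowerSeries ℂ) * c := by
  have h1 : (D X c).trace = ∑ i : Fin (X.dim + 1), (if (i : ℕ) < 2 then 0 else c) := by
    unfold Matrix.trace D
    refine Finset.sum_congr rfl fun j _ => ?_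
    rw [Matrix.diag_apply, Matrix.of_apply]
    by_cases hj : (j : ℕ) < 2
    · rw [if_pos hj, if_pos hj, if_neg (by omega)]
    · rw [if_neg hj, if_neg hj, if_pos rfl]
  rw [h1, Fin.sum_univ_eq_sum_range (fun i => if i < 2 then 0 else c)]
  have e : X.dim + 1 = (X.dim - 1) + 2 := by omega
  rw [e]
  exact sum_two c _

theorem trace_M (hF : IsGW X F) (h1 : IsGenusOne F) (hX : 4 ≤ X.dim) (hd : X.degs = [3]) :
    (M hF h1 (X.dim - 1)).trace =
      PowerSeries.C (27 * ((X.dim : ℂ) - 1) ^ X.dim) * PowerSeries.X := by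
  have hi : index X ≠ 0 := by
    rw [index_three hd]
    have : (4 : ℤ) ≤ X.dim := by exact_mod_cast hX
    omega
  have hW := isUnit_W hF h1 hi
  set c : PowerSeries ℂ := PowerSeries.C (27 * ((X.dim : ℂ) - 1) ^ (X.dim - 1)) * PowerSeries.X
    with hc
  have e1 : M hF h1 (X.dim - 1) = W hF h1 * D X c * (W hF h1)⁻¹ := by
    rw [hc, ← M_W hF h1 hX hd, Matrix.mul_assoc, Matrix.mul_nonsing_inv _ hW, Matrix.mul_one]
  rw [e1, Matrix.trace_mul_comm, ← Matrix.mul_assoc, Matrix.nonsing_inv_mul _ hW,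
    Matrix.one_mul, trace_D hX, hc]
  have e2 : ((X.dim - 1 : ℕ) : PowerSeries ℂ) = PowerSeries.C ((X.dim : ℂ) - 1) := by
    rw [map_sub, map_one, map_natCast, Nat.cast_sub (by omega), Nat.cast_one]
  have e3 : ((X.dim : ℂ) - 1) ^ X.dim = ((X.dim : ℂ) - 1) * ((X.dim : ℂ) - 1) ^ (X.dim - 1) := by
    rw [← pow_succ']
    congr 1
    omega
  rw [e2, e3, ← mul_assoc, ← map_mul]
  congr 2
  ring

/-- **[J2c]** the trace of the multiplication by `E ^ ν` at the origin, `ν = r - 1` -/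
theorem og_trace (hF : IsGW X F) (he : Even X.dim) (h1 : IsGenusOne F) (hX : 4 ≤ X.dim)
    (hd : X.degs = [3]) :
    og (ev0 (phi X (Matrix.trace (QA.mat (consts hF he) (EM hF he ^ (X.dim - 1)))))) =
      PowerSeries.C (27 * ((X.dim : ℂ) - 1) ^ X.dim) * PowerSeries.X := by
  have h := congrArg og (fe_trace hF he h1 (X.dim - 1))
  refine h.trans ?_
  have h2 : og (∑ v : X.Prim, ((lam hF h1 (Eu hF h1)) v) ^ (X.dim - 1)) = 0 := by
    rw [og_sum]
    refine Finset.sum_eq_zero fun v _ => ?_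
    rw [og_pow, og_lam hF h1 hX hd v, zero_pow (by omega)]
  have h3 : og (∑ i, ∑ k, (Eu hF h1 ^ (X.dim - 1) : AA hF h1) k * G1.qc F k i i) =
      (M hF h1 (X.dim - 1)).trace := by
    rw [og_sum]
    refine Finset.sum_congr rfl fun i _ => ?_
    rw [og_sum]
    exact Finset.sum_congr rfl fun k _ => og_mul _ _
  have h4 : ∀ f g : RR X, og (f + g) = og f + og g := fun f g => map_add _ f g
  rw [h4, h2, h3, add_zero, trace_M hF h1 hX hd]


end Vale.Agent.P269.G2.H598.OgTrace
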