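import Vale.Agent.P269.G2.XSpec

/-!
# [Ya] renaming of the variables
-/

namespace Vale.Agent.P269.G2.H598

open Vale.Agent.P269.CI
open Vale.Agent.P269.G2.H984 (RF)

variable {X : CompleteIntersection} {F : ℕ → ℕ → List (Ins X) → ℂ}

theorem phi_apply (f : RM X) :
    phi X f = MvPowerSeries.renameEquiv (PowerSeries ℂ) (Fintype.equivFin (Ix X)).symm f := rfl

/-- **[Ya]** -/
theorem phi_inj (f : RM X) (h : phi X f = 0) : f = 0 := by
  rw [phi_apply] at h
  exact (map_eq_zero_iff _ (AlgEquiv.injective _)).1 h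

/-- **[Ya]** -/
theorem phi_X (b : Ix X) : phi X (MvPowerSeries.X ((E0 X).i0 b)) = MvPowerSeries.X b := by
  rw [phi_apply]
  change MvPowerSeries.rename _ (MvPowerSeries.X ((Fintype.equivFin (Ix X)) b)) = _
  rw [MvPowerSeries.rename_X, Equiv.symm_apply_apply]

/-- **[Ya]** -/
theorem phi_smul (c : ℂ) (f : RM X) : phi X (c • f) = c • phi X f := by
  have h1 : ∀ {σ : Type} (g : MvPowerSeries σ (PowerSeries ℂ)),
      c • g = (PowerSeries.C c : PowerSeries ℂ) • g := by
    intro σ g
    ext n m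
    simp
  rw [phi_apply, phi_apply, h1 f, map_smul]
  ext n m
  simp

theorem coeff_phi (f : RM X) (γ : Ix X →₀ ℕ) :
    MvPowerSeries.coeff γ (phi X f) =
      MvPowerSeries.coeff (γ.embDomain (Fintype.equivFin (Ix X)).toEmbedding) f := by
  have h := MvPowerSeries.coeff_embDomain_rename
    (Fintype.equivFin (Ix X)).symm.toEmbedding f
    (γ.embDomain (Fintype.equivFin (Ix X)).toEmbedding)
  have h2 : (γ.embDomain (Fintype.equivFin (Ix X)).toEmbedding).embDomain
      (Fintype.equivFin (Ix X)).symm.toEmbedding = γ := by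
    rw [Finsupp.embDomain_eq_mapDomain, Finsupp.embDomain_eq_mapDomain,
      ← Finsupp.mapDomain_comp]
    have : ((Fintype.equivFin (Ix X)).symm.toEmbedding ∘ (Fintype.equivFin (Ix X)).toEmbedding) =
        id := by
      funext a
      exact (Fintype.equivFin (Ix X)).symm_apply_apply a
    rw [this, Finsupp.mapDomain_id]
  rw [h2] at h
  exact h

/-- **[Ya]** -/
theorem phi_pd (b : Ix X) (f : RM X) :
    phi X (pd b f) = MvPowerSeries.pderiv (PowerSeries ℂ) b (phi X f) := by
  classical
  ext1 γ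
  rw [coeff_phi, MvPowerSeries.coeff_pderiv, coeff_phi]
  unfold pd
  rw [MvPowerSeries.coeff_pderiv]
  have h1 : (γ.embDomain (Fintype.equivFin (Ix X)).toEmbedding) ((E0 X).i0 b) = γ b :=
    Finsupp.embDomain_apply_self _ _ _
  have h2 : (γ + Finsupp.single b 1).embDomain (Fintype.equivFin (Ix X)).toEmbedding =
      γ.embDomain (Fintype.equivFin (Ix X)).toEmbedding + Finsupp.single ((E0 X).i0 b) 1 := by
    rw [Finsupp.embDomain_eq_mapDomain, Finsupp.embDomain_eq_mapDomain, Finsupp.mapDomain_add,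
      Finsupp.mapDomain_single]
    rfl
  rw [h1, h2]

end Vale.Agent.P269.G2.H598
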